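import Vale.Agent.P144E.Basic
import Vale.Agent.P144D.Geo.A
import Vale.Agent.P144D.Geo.B

/-!
Rough boundaries: no flux near the boundary, and deep points of the outer components.
-/

namespace Vale.Agent.P144Z

open Finset

open GeoA in
theorem flatW : FlatW := by
  intro M _ R B N r h hB z d ρ hz hρ f hf
  refine (flux_sign hB.sign f).resolve_right fun hfl => ?_
  obtain ⟨⟨g, g1, g2⟩, g', g3, g4⟩ := hz
  have t1 := tdist_triangle g z f
  have t2 := tdist_triangle g' z f
  rw [tdist_comm z f] at t1 t2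
  rcases hB.fl f hfl with h1 | h1
  · obtain ⟨x, h2, h3⟩ := h.cork g' g3 1 (by omega)
    have t3 := tdist_triangle x g' f
    have t4 := tdist_triangle (x + uv M 1) x f
    have t5 := tdist_uv x 1
    have h4 := h1 (x + uv M 1, 0) (by simp only; omega)
    have h5 := h3 _ t5
    have h6 := h3 x (by simp [tdist_self])
    cases hfr : R.fr <;> simp [Reg.pw, oth, hfr, h5, h6, tT_ne.2] at h4
  · have h3 := h1 (g, 0) (by simp only; omega)
    cases hfr : R.fr
    · simp [Reg.pw, hfr, g1] at h3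
    · simp only [Reg.pw, hfr, if_true] at h3
      split_ifs at h3
      · exact one_ne_zero h3
      · exact tT_ne.1 h3

open B5a2 in
theorem holesW : HolesW := by
  refine fun N Λ₀ => ⟨(2 * Λ₀ * (2 * N * N + N + 2) + 1) ^ 2, 2 * N * N + N + 2, by omega,
    fun Λ T r M _ h hr hrT hT hΛ hM => ?_⟩
  have hs1 := Nat.mul_div_le r (2 * N * N + N + 2)
  have hs2 : r < (2 * N * N + N + 2) * (r / (2 * N * N + N + 2) + 1) :=
    Nat.lt_mul_div_succ r (by omega)
  have hs0 := Nat.div_pos hr (by omega)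
  generalize r / (2 * N * N + N + 2) = s at hs0 hs1 hs2
  have hs4 : N * (N * (s + 1) + 1) + 2 * s ≤ r := by
    nlinarith [Nat.mul_le_mul_left (N * N) hs0, Nat.mul_le_mul_left N hs0]
  have hs5 : N * (s + 1) ≤ r := by
    rcases Nat.eq_zero_or_pos N with rfl | hN
    · omega
    · nlinarith [Nat.mul_le_mul_right (N * (s + 1)) hN]
  obtain ⟨F, hF1, hF2, hF, hnet⟩ := exists_deep_net Λ T s
  have hs3 := Nat.mul_le_mul_left Λ₀ hs2.le
  refine ⟨F.card, card_net hF1 hF (by nlinarith), (2 * T, 0), fun i => (F.equivFin.symm i).1,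
    holes_of_net hΛ (by omega) hF1 hF2 hF, fun u hu => ?_⟩
  obtain ⟨x, h1, h2⟩ := h.cork u hu s hs5
  have h3 := (h.conn u _ (by omega)).out' (by simp [tdist_self]) h1 hu (h2 x (by simp [tdist_self]))
  have hu2 : zd (lft x) 0 ≤ M / 2 := by
    have := tdist_le x 0
    rw [G.tdist_def, sub_zero] at this
    simp only [zd, Prod.fst_zero, Prod.snd_zero, sub_zero]
    omega
  have key : ∀ w, PC (fun x => x ∉ Λ ∧ zd x 0 ≤ M / 2) (lft x) w →
      OutConn (Λ.image (prj M)) u (prj M w) := fun w hw => by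
    have := outConn_of_pc (M := M) hΛ (by omega) hw
    rw [prj_lft] at this
    exact h3.trans this
  by_cases hfar : T < zd (lft x) 0
  · exact Or.inl (key _ (pc_far hΛ (by omega) (by omega) hfar hu2))
  obtain ⟨y, hy, hyx⟩ := hnet (lft x) (not_lt.1 hfar) fun w hw hw' => h2 (prj M w) (by
    have := (tdist_prj_le (M := M) w (lft x)).trans hw
    rwa [prj_lft] at this) (mem_image_of_mem _ hw')
  refine Or.inr ⟨F.equivFin ⟨y, hy⟩, key _ ?_⟩
  simp only [Equiv.symm_apply_apply]
  exact pc_box ((hF1 y hy).trans (by omega)) hu2 (hF2 y hy) hyx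

end Vale.Agent.P144Z
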